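import Vale.Agent.P183.H491.Om
import Mathlib.Tactic.FinCases

/-!
The invariant subgroups of the base.
-/

set_option autoImplicit false

namespace Vale.Agent.P183.H491

open Vale.Agent.P183 Vale.Agent.P183.H996

section

variable {S : Type} [Group S]

theorem pt_const' (s : S) : pt (fun _ => s) = pt 1 := by
  apply Om.ext
  intro i j
  rw [pt_apply, pt_apply, Pi.one_apply, Pi.one_apply]
  group

theorem pt_mul_const (x : Fin 3 → S) (s : S) : pt (x * fun _ => s) = pt x := pt_const x s

theorem Inv.tr {X : Subgroup (Om S → S)} (hX : Inv X) (a : Fin 3 → S) {f : Om S → S}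
    (hf : f ∈ X) : ∃ f' ∈ X, ∀ x, f' (pt x) = (a 0)⁻¹ * f (pt (a * x)) * a 0 := by
  refine ⟨_, hX (SemidirectProduct.inl a) rfl f hf, fun x => ?_⟩
  simp only [smul_pt]
  rfl

theorem Inv.sw {X : Subgroup (Om S → S)} (hX : Inv X) {f : Om S → S}
    (hf : f ∈ X) : ∃ f' ∈ X, ∀ x, f' (pt x) = f (pt fun i => x (Equiv.swap 1 2 i)) := by
  refine ⟨_, hX (SemidirectProduct.inr (Equiv.swap 1 2))
    (show (Equiv.swap (1 : Fin 3) 2) 0 = 0 by decide) f hf, fun x => ?_⟩
  simp only [smul_pt]
  have h1 : act (SemidirectProduct.inr (Equiv.swap 1 2) : Yb S) x =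
      fun i => x (Equiv.swap 1 2 i) := by
    funext i
    rw [act]
    change (1 : S) * x ((Equiv.swap (1 : Fin 3) 2)⁻¹ i) = _
    rw [one_mul, Equiv.swap_inv]
  rw [h1]
  change (1 : S)⁻¹ * _ * 1 = _
  rw [inv_one, one_mul, mul_one]

theorem Inv.surj [IsSimpleGroup S] {X : Subgroup (Om S → S)} (hX : Inv X) (hne : X ≠ ⊥) :
    ∀ w s, ∃ f ∈ X, f w = s := by
  have hn : (valsAt X ∅ (pt 1)).Normal := by
    constructor
    rintro _ ⟨f, hf, _, rfl⟩ g
    obtain ⟨f', hf', h1⟩ := hX.tr (fun _ => g⁻¹) hf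
    refine ⟨f', hf', by simp, ?_⟩
    rw [h1]
    have h2 : pt ((fun _ => g⁻¹) * (1 : Fin 3 → S)) = pt 1 := by
      rw [mul_one]
      exact pt_const' _
    rw [h2, inv_inv]
  rcases hn.eq_bot_or_eq_top with h | h
  · exfalso
    apply hne
    rw [eq_bot_iff]
    intro f hf
    rw [Subgroup.mem_bot]
    funext w
    rw [w.eq_pt]
    set x : Fin 3 → S := fun i => w.1 i 0 with hx
    obtain ⟨f', hf', h1⟩ := hX.tr x hf
    have h2 : f' (pt 1) ∈ valsAt X ∅ (pt 1) := ⟨f', hf', by simp, rfl⟩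
    rw [h, Subgroup.mem_bot, h1, mul_one] at h2
    calc f (pt x) = x 0 * ((x 0)⁻¹ * f (pt x) * x 0) * (x 0)⁻¹ := by group
      _ = 1 := by rw [h2]; group
  · intro w s
    rw [w.eq_pt]
    set x : Fin 3 → S := fun i => w.1 i 0 with hx
    have h2 : (x 0)⁻¹ * s * x 0 ∈ valsAt X ∅ (pt 1) := by rw [h]; trivial
    obtain ⟨f, hf, _, h3⟩ := h2
    obtain ⟨f', hf', h1⟩ := hX.tr x⁻¹ hf
    refine ⟨f', hf', ?_⟩
    rw [h1, inv_mul_cancel, h3, Pi.inv_apply]
    group

theorem Inv.th {X : Subgroup (Om S → S)} (hX : Inv X) (a : Fin 3 → S) {x y : Fin 3 → S}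
    (h : Th X (pt x) (pt y)) : Th X (pt (a * x)) (pt (a * y)) := by
  intro f hf h1
  obtain ⟨f', hf', h2⟩ := hX.tr a hf
  have h3 := h f' hf' (by rw [h2, h1]; group)
  rw [h2] at h3
  calc f (pt (a * y)) = a 0 * ((a 0)⁻¹ * f (pt (a * y)) * a 0) * (a 0)⁻¹ := by group
    _ = 1 := by rw [h3]; group

theorem Inv.thsw {X : Subgroup (Om S → S)} (hX : Inv X) {x : Fin 3 → S}
    (h : Th X (pt 1) (pt x)) : Th X (pt 1) (pt fun i => x (Equiv.swap 1 2 i)) := by
  intro f hf h1
  obtain ⟨f', hf', h2⟩ := hX.sw hf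
  have h3 := h f' hf' (by rw [h2]; exact h1)
  rw [h2] at h3
  exact h3

/-- The block of the base point. -/
def J [IsSimpleGroup S] (X : Subgroup (Om S → S)) (hX : Inv X) (hne : X ≠ ⊥) :
    Subgroup (Fin 3 → S) where
  carrier := {x | Th X (pt 1) (pt x)}
  one_mem' := Th.refl _ _
  mul_mem' := by
    intro x y hx hy
    have h1 := hX.th x hy
    rw [mul_one] at h1
    exact Th.trans hx h1
  inv_mem' := by
    intro x hx
    have h1 := hX.th x⁻¹ hx
    rw [mul_one, inv_mul_cancel] at h1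
    exact Th.symm (hX.surj hne) h1

theorem mem_J [IsSimpleGroup S] {X : Subgroup (Om S → S)} {hX : Inv X} {hne : X ≠ ⊥}
    {x : Fin 3 → S} : x ∈ J X hX hne ↔ Th X (pt 1) (pt x) := Iff.rfl

theorem J_cases [Finite S] [IsSimpleGroup S] (hS : ∃ a b : S, a * b ≠ b * a)
    (J : Subgroup (Fin 3 → S)) (hc : ∀ s : S, (fun _ => s) ∈ J)
    (hsw : ∀ x ∈ J, (fun i => x (Equiv.swap 1 2 i)) ∈ J) :
    (∀ x ∈ J, x 0 = x 1 ∧ x 0 = x 2) ∨
      ((∀ x : Fin 3 → S, x 1 = x 2 → x ∈ J) ∧ (∀ x ∈ J, x 1 = x 2)) ∨ (∀ x, x ∈ J) := by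
  have e0 : Equiv.swap (1 : Fin 3) 2 0 = 0 := by decide
  have e1 : Equiv.swap (1 : Fin 3) 2 1 = 2 := by decide
  have e2 : Equiv.swap (1 : Fin 3) 2 2 = 1 := by decide
  by_cases h01 : ∀ x ∈ J, x 0 = x 1
  · left
    intro x hx
    have h1 := h01 _ (hsw x hx)
    simp only [e0, e1] at h1
    exact ⟨h01 x hx, h1⟩
  · right
    have h02 : ¬ ∀ x ∈ J, x 0 = x 2 := by
      intro h
      apply h01
      intro x hx
      have h1 := h _ (hsw x hx)
      simp only [e0, e2] at h1
      exact h1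
    by_cases h12 : ∀ x ∈ J, x 1 = x 2
    · left
      refine ⟨fun x hx => ?_, h12⟩
      refine mem_of_const_on_classes hS J hc x ?_
      intro i j h
      fin_cases i <;> fin_cases j
      · rfl
      · exact absurd h h01
      · exact absurd h h02
      · exact absurd (fun ψ hψ => (h ψ hψ).symm) h01
      · rfl
      · exact hx
      · exact absurd (fun ψ hψ => (h ψ hψ).symm) h02
      · exact hx.symm
      · rfl
    · right
      intro x
      refine mem_of_const_on_classes hS J hc x ?_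
      intro i j h
      fin_cases i <;> fin_cases j
      · rfl
      · exact absurd h h01
      · exact absurd h h02
      · exact absurd (fun ψ hψ => (h ψ hψ).symm) h01
      · rfl
      · exact absurd h h12
      · exact absurd (fun ψ hψ => (h ψ hψ).symm) h02
      · exact absurd (fun ψ hψ => (h ψ hψ).symm) h12
      · rfl

/-- The triple `(1, c, 1)`. -/
def e1 (c : S) : Fin 3 → S := fun i => if i = 1 then c else 1
/-- The triple `(1, 1, c)`. -/
def e2 (c : S) : Fin 3 → S := fun i => if i = 2 then c else 1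
/-- The triple `(1, c, c)`. -/
def e12 (c : S) : Fin 3 → S := fun i => if i = 0 then 1 else c

theorem Inv.th' {X : Subgroup (Om S → S)} (hX : Inv X) {x y : Fin 3 → S}
    (h : Th X (pt x) (pt y)) : Th X (pt 1) (pt (x⁻¹ * y)) := by
  have h1 := hX.th x⁻¹ h
  rwa [inv_mul_cancel] at h1

/-- If every element of `X` belongs to `Z`, the elements of which are determined on the blocks by
one value, then `Z ≤ X`. -/
theorem Inv.ge [Finite S] [IsSimpleGroup S] (hS : ∃ a b : S, a * b ≠ b * a)
    {X : Subgroup (Om S → S)} (hX : Inv X) (hne : X ≠ ⊥) {Z : Subgroup (Om S → S)}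
    (h1 : X ≤ Z) (h2 : ∀ x ∈ J X hX hne, x 1 = x 2)
    (h3 : ∀ f ∈ Z, ∀ g ∈ Z, ∀ x c, f (pt x) = g (pt x) → f (pt (x * e0 c)) = g (pt (x * e0 c))) :
    Z ≤ X := by
  intro v hv
  refine mem_of_local hS (hX.surj hne) v ?_
  intro w
  obtain ⟨f, hf, hfw⟩ := hX.surj hne w (v w)
  refine ⟨f, hf, fun w' hw' => ?_⟩
  rw [w.eq_pt, w'.eq_pt] at hw'
  rw [w.eq_pt] at hfw
  rw [w'.eq_pt]
  generalize (fun i => w.1 i 0) = x at *
  generalize (fun i => w'.1 i 0) = y at *
  have h4 := h2 _ (mem_J.2 (hX.th' hw'))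
  have h5 : y = x * e0 ((x⁻¹ * y) 0 * ((x⁻¹ * y) 1)⁻¹) * fun _ => (x⁻¹ * y) 1 := by
    funext i
    fin_cases i
    · change y 0 = x 0 * ((x 0)⁻¹ * y 0 * ((x 1)⁻¹ * y 1)⁻¹) * ((x 1)⁻¹ * y 1)
      group
    · simp [e0]
    · change y 2 = x 2 * 1 * (x⁻¹ * y) 1
      rw [h4]
      simp
  rw [h5, pt_mul_const]
  exact h3 f (h1 hf) v hv x _ hfw

/-- **The invariant subgroups of the base.** -/
theorem cls [Finite S] [IsSimpleGroup S] (hS : ∃ a b : S, a * b ≠ b * a)
    (X : Subgroup (Om S → S)) (hX : Inv X) :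
    X = ⊥ ∨ X = D1 S ∨ X = X1 S ∨ X = X2 S ∨ X = ⊤ := by
  by_cases hne : X = ⊥
  · exact Or.inl hne
  right
  have hs := hX.surj hne
  have hJc : ∀ s : S, (fun _ => s) ∈ J X hX hne := by
    intro s
    rw [mem_J, pt_const']
    exact Th.refl _ _
  choose fg hfg hfg1 using fun g => hs (pt 1) g
  -- the value at a point of the block as a function of the value at the base point
  let E : (Fin 3 → S) → S → S := fun x g => fg g (pt x)
  have hE : ∀ x ∈ J X hX hne, ∀ f ∈ X, f (pt x) = E x (f (pt 1)) := by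
    intro x hx f hf
    have h1 := mem_J.1 hx (f * (fg (f (pt 1)))⁻¹) (X.mul_mem hf (X.inv_mem (hfg _))) (by
      rw [Pi.mul_apply, Pi.inv_apply, hfg1, mul_inv_cancel])
    rw [Pi.mul_apply, Pi.inv_apply, mul_inv_eq_one] at h1
    exact h1
  have hE1 : ∀ g, E 1 g = g := fun g => hfg1 g
  have hEm : ∀ x ∈ J X hX hne, ∀ g g', E x (g * g') = E x g * E x g' := by
    intro x hx g g'
    have h1 := hE x hx (fg g * fg g') (X.mul_mem (hfg g) (hfg g'))
    rw [Pi.mul_apply, Pi.mul_apply, hfg1, hfg1] at h1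
    exact h1.symm
  have hEc : ∀ x s g, E (x * fun _ => s) g = E x g := by
    intro x s g
    change fg g (pt _) = fg g (pt _)
    rw [pt_mul_const]
  have hEt : ∀ a ∈ J X hX hne, ∀ x ∈ J X hX hne, ∀ g,
      E x ((a 0)⁻¹ * E a g * a 0) = (a 0)⁻¹ * E (a * x) g * a 0 := by
    intro a ha x hx g
    obtain ⟨f', hf', h1⟩ := hX.tr a (hfg g)
    have h2 := hE x hx f' hf'
    rw [h1, h1, mul_one] at h2
    exact h2.symm
  rcases J_cases hS (J X hX hne) hJc (fun x hx => mem_J.2 (hX.thsw (mem_J.1 hx))) with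
    h | ⟨h, h'⟩ | h
  · -- singletons
    right; right; right
    rw [eq_top_iff]
    intro v _
    refine mem_of_local hS hs v ?_
    intro w
    obtain ⟨f, hf, hfw⟩ := hs w (v w)
    refine ⟨f, hf, fun w' hw' => ?_⟩
    rw [w.eq_pt, w'.eq_pt] at hw'
    rw [w.eq_pt] at hfw
    rw [w'.eq_pt]
    generalize (fun i => w.1 i 0) = x at *
    generalize (fun i => w'.1 i 0) = y at *
    obtain ⟨h4, h5⟩ := h _ (mem_J.2 (hX.th' hw'))
    have h6 : y = x * fun _ => (x⁻¹ * y) 0 := by
      funext i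
      fin_cases i
      · simp
      · change y 1 = x 1 * (x⁻¹ * y) 0
        rw [h4]
        simp
      · change y 2 = x 2 * (x⁻¹ * y) 0
        rw [h5]
        simp
    rw [h6, pt_mul_const]
    exact hfw
  · -- two commuting factors
    right
    have hJ0 : ∀ c : S, e0 c ∈ J X hX hne := fun c => h _ rfl
    have hd := dich hS (fun c g => E (e0 c) g) (by
        intro g
        have h1 : e0 (1 : S) = 1 := by
          funext i
          simp [e0]
        change E (e0 1) g = g
        rw [h1, hE1]) (by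
        intro c d g
        have h1 : e12 d⁻¹ ∈ J X hX hne := h _ rfl
        have h2 := hEt _ h1 _ (hJ0 c) g
        have h3 : e12 d⁻¹ 0 = (1 : S) := rfl
        rw [h3, inv_one, one_mul, mul_one, one_mul, mul_one] at h2
        have h4 : e0 d = e12 d⁻¹ * fun _ => d := by
          funext i
          fin_cases i <;> simp [e0, e12]
        have h5 : e0 (c * d) = e12 d⁻¹ * e0 c * fun _ => d := by
          funext i
          fin_cases i <;> simp [e0, e12]
        rw [h4, h5, hEc, hEc, h2]) (fun c => hEm _ (hJ0 c)) (by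
        intro a c g
        have h2 := hEt _ (hJc a) _ (hJ0 c) g
        have h3 : E (fun _ => a) g = g := by
          have h4 := hEc 1 a g
          rw [one_mul, hE1] at h4
          exact h4
        rw [h3] at h2
        have h5 : e0 (a * c * a⁻¹) = (fun _ => a) * e0 c * fun _ => a⁻¹ := by
          funext i
          fin_cases i <;> simp [e0]
        rw [h5, hEc, h2]
        group)
    rcases hd with hd | hd
    · left
      have h1 : X ≤ X1 S := by
        intro f hf x c
        obtain ⟨f', hf', h2⟩ := hX.tr x hf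
        have h3 := hE _ (hJ0 c) f' hf'
        rw [hd, h2, h2, mul_one] at h3
        exact mul_left_cancel (mul_right_cancel h3)
      refine le_antisymm h1 (hX.ge hS hne h1 h' ?_)
      intro f hf g hg x c hfg
      change f (pt fun i => x i * e0 c i) = g (pt fun i => x i * e0 c i)
      rw [hf, hg, hfg]
    · right; left
      have h1 : X ≤ X2 S := by
        intro f hf x c
        obtain ⟨f', hf', h2⟩ := hX.tr x hf
        have h3 := hE _ (hJ0 c) f' hf'
        rw [hd, h2, h2, mul_one] at h3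
        change f (pt (x * e0 c)) = _
        calc f (pt (x * e0 c)) = x 0 * ((x 0)⁻¹ * f (pt (x * e0 c)) * x 0) * (x 0)⁻¹ := by group
          _ = x 0 * (c * ((x 0)⁻¹ * f (pt x) * x 0) * c⁻¹) * (x 0)⁻¹ := by rw [h3]
          _ = _ := by group
      refine le_antisymm h1 (hX.ge hS hne h1 h' ?_)
      intro f hf g hg x c hfg
      change f (pt fun i => x i * e0 c i) = g (pt fun i => x i * e0 c i)
      rw [hf, hg, hfg]
  · -- one block
    left
    have hsw : ∀ x g, E x g = E (fun i => x (Equiv.swap 1 2 i)) g := by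
      intro x g
      obtain ⟨f', hf', h1⟩ := hX.sw (hfg g)
      have h2 := hE x (h x) f' hf'
      rw [h1, h1] at h2
      have h3 : fg g (pt fun i => (1 : Fin 3 → S) (Equiv.swap 1 2 i)) = g := hfg1 g
      rw [h3] at h2
      exact h2.symm
    have h12 : ∀ c g, E (e1 c) g = E (e2 c) g := by
      intro c g
      rw [hsw]
      congr 1
      funext i
      fin_cases i <;> simp [e1, e2, Equiv.swap_apply_def]
    have hcm : ∀ a x : Fin 3 → S, a 0 = 1 → ∀ g, E x (E a g) = E (a * x) g := by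
      intro a x ha g
      have h2 := hEt a (h a) x (h x) g
      rw [ha, inv_one, one_mul, mul_one, one_mul, mul_one] at h2
      exact h2
    have ht := triv_of_comm hS (fun c g => E (e1 c) g) (by
        intro g
        have h1 : e1 (1 : S) = 1 := by
          funext i
          simp [e1]
        change E (e1 1) g = g
        rw [h1, hE1]) (by
        intro c d g
        rw [hcm _ _ rfl]
        congr 1
        funext i
        fin_cases i <;> simp [e1]) (by
        intro c d g
        rw [h12 d, h12 d, hcm _ _ rfl, hcm _ _ rfl]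
        congr 1
        funext i
        fin_cases i <;> simp [e1, e2])
    have ht1 : ∀ c g, E (e1 c) g = g := ht
    have ht2 : ∀ c g, E (e2 c) g = g := fun c g => by rw [← h12, ht1]
    have hall : ∀ x g, E x g = g := by
      intro x g
      have h1 := hEc x (x 0)⁻¹ g
      have h2 : (x * fun _ => (x 0)⁻¹) = e1 (x 1 * (x 0)⁻¹) * e2 (x 2 * (x 0)⁻¹) := by
        funext i
        fin_cases i <;> simp [e1, e2]
      rw [h2, ← hcm _ _ rfl, ht2, ht1] at h1
      exact h1.symm
    have hXc : ∀ f ∈ X, ∀ w, f w = f (pt 1) := by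
      intro f hf w
      rw [w.eq_pt, hE _ (h _) f hf, hall]
    apply le_antisymm
    · exact fun f hf => mem_D1.2 (hXc f hf)
    · intro v hv
      have h1 : v = fg (v (pt 1)) := by
        funext w
        rw [mem_D1.1 hv w, hXc _ (hfg _) w, hfg1]
      rw [h1]
      exact hfg _

end

end Vale.Agent.P183.H491
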