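import Mathlib.GroupTheory.Subgroup.Center
import Vale.Agent.P183.Bdl.B2

/-!
Subgroups of a power of a nonabelian simple group with surjective coordinates, and two lemmas on
actions of a simple group on itself.
-/

set_option autoImplicit false

namespace Vale.Agent.P183.H491

open Vale.Agent.P183

section Sub

variable {A S : Type} [Group S]

theorem valsAt_normal' (K : Subgroup (A → S)) {c : A} (hc : ∀ s, ∃ f ∈ K, f c = s)
    (P : Finset A) : (valsAt K P c).Normal := by
  constructor
  rintro _ ⟨φ, h1, h2, rfl⟩ g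
  obtain ⟨f, hf, rfl⟩ := hc g
  refine ⟨f * φ * f⁻¹, K.mul_mem (K.mul_mem hf h1) (K.inv_mem hf), fun p hp => ?_, rfl⟩
  simp [h2 p hp]

/-- The kernel at `x` is contained in the kernel at `y`. -/
def Th (K : Subgroup (A → S)) (x y : A) : Prop := ∀ f ∈ K, f x = 1 → f y = 1

theorem Th.refl (K : Subgroup (A → S)) (x : A) : Th K x x := fun _ _ h => h

theorem Th.trans {K : Subgroup (A → S)} {x y z : A} (h : Th K x y) (h' : Th K y z) : Th K x z :=
  fun f hf hx => h' f hf (h f hf hx)

theorem Th.symm [IsSimpleGroup S] {K : Subgroup (A → S)} (hK : ∀ x s, ∃ f ∈ K, f x = s)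
    {x y : A} (h : Th K x y) : Th K y x := by
  rcases (valsAt_normal' K (hK x) {y}).eq_bot_or_eq_top with h1 | h1
  · intro f hf hy
    have h2 : f x ∈ valsAt K {y} x := ⟨f, hf, by simpa using hy, rfl⟩
    rw [h1, Subgroup.mem_bot] at h2
    exact h2
  · exfalso
    obtain ⟨s, hs⟩ := exists_ne (1 : S)
    obtain ⟨f, hf, hfs⟩ := hK y s
    have h2 : f x ∈ valsAt K {y} x := by rw [h1]; trivial
    obtain ⟨g, hg, hg1, hg2⟩ := h2
    have h3 := h (f * g⁻¹) (K.mul_mem hf (K.inv_mem hg)) (by simp [hg2])
    have h4 : g y = 1 := hg1 y (by simp)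
    rw [Pi.mul_apply, Pi.inv_apply, h4, inv_one, mul_one] at h3
    exact hs (hfs.symm.trans h3)

theorem vals_top [IsSimpleGroup S] (hS : ∃ a b : S, a * b ≠ b * a) {K : Subgroup (A → S)}
    (hK : ∀ x s, ∃ f ∈ K, f x = s) (c : A) (P : Finset A) (hP : ∀ p ∈ P, ¬ Th K c p) :
    valsAt K P c = ⊤ := by
  classical
  induction P using Finset.induction_on with
  | empty =>
    rw [eq_top_iff]
    intro s _
    obtain ⟨f, hf, hfs⟩ := hK c s
    exact ⟨f, hf, by simp, hfs⟩
  | insert p P hp ih =>
    have h1 : valsAt K P c = ⊤ := ih fun q hq => hP q (Finset.mem_insert_of_mem hq)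
    have h2 : valsAt K {p} c = ⊤ := by
      rcases (valsAt_normal' K (hK c) {p}).eq_bot_or_eq_top with h | h
      · exfalso
        apply hP p (Finset.mem_insert_self _ _)
        refine Th.symm hK ?_
        intro f hf hfp
        have h3 : f c ∈ valsAt K {p} c := ⟨f, hf, by simpa using hfp, rfl⟩
        rwa [h, Subgroup.mem_bot] at h3
      · exact h
    rcases (valsAt_normal' K (hK c) (insert p P)).eq_bot_or_eq_top with h | h
    · exfalso
      obtain ⟨a, b, hab⟩ := hS
      have ha : a ∈ valsAt K P c := by rw [h1]; trivial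
      have hb : b ∈ valsAt K {p} c := by rw [h2]; trivial
      obtain ⟨φ, hφ, hφP, rfl⟩ := ha
      obtain ⟨ψ, hψ, hψp, rfl⟩ := hb
      have hm : φ c * ψ c * (φ c)⁻¹ * (ψ c)⁻¹ ∈ valsAt K (insert p P) c := by
        refine ⟨φ * ψ * φ⁻¹ * ψ⁻¹,
          K.mul_mem (K.mul_mem (K.mul_mem hφ hψ) (K.inv_mem hφ)) (K.inv_mem hψ), ?_, rfl⟩
        intro q hq
        rcases Finset.mem_insert.1 hq with rfl | hq
        · have := hψp q (by simp)
          simp [this]
        · simp [hφP q hq]
      rw [h, Subgroup.mem_bot] at hm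
      apply hab
      have h3 := mul_inv_eq_one.1 hm
      calc φ c * ψ c = φ c * ψ c * (φ c)⁻¹ * φ c := by group
        _ = ψ c * φ c := by rw [h3]
    · exact h

/-- A function which agrees on every class with an element of the subgroup belongs to it. -/
theorem mem_of_local [Finite A] [IsSimpleGroup S] (hS : ∃ a b : S, a * b ≠ b * a)
    {K : Subgroup (A → S)} (hK : ∀ x s, ∃ f ∈ K, f x = s) (v : A → S)
    (hv : ∀ x, ∃ f ∈ K, ∀ y, Th K x y → f y = v y) : v ∈ K := by
  classical
  cases nonempty_fintype A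
  have hmain : ∀ n : ℕ, ∀ v : A → S, (Finset.univ.filter fun x => v x ≠ 1).card ≤ n →
      (∀ x, ∃ f ∈ K, ∀ y, Th K x y → f y = v y) → v ∈ K := by
    intro n
    induction n with
    | zero =>
      intro v hn _
      have h1 : v = 1 := by
        funext x
        by_contra hx
        have h2 : x ∈ (Finset.univ.filter fun x => v x ≠ 1) := by simpa using hx
        have h3 := Finset.card_pos.2 ⟨x, h2⟩
        omega
      rw [h1]
      exact K.one_mem
    | succ n ih =>
      intro v hn hv
      by_cases hx : ∃ x, v x ≠ 1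
      · obtain ⟨x, hx⟩ := hx
        obtain ⟨f, hf, hfv⟩ := hv x
        have h1 : v x ∈ valsAt K (Finset.univ.filter fun p => ¬ Th K x p) x := by
          rw [vals_top hS hK x _ (by intro p hp; simpa using hp)]
          trivial
        obtain ⟨g, hg, hg1, hg2⟩ := h1
        have hgv : ∀ y, Th K x y → g y = v y := by
          intro y hy
          have h2 := hy (f * g⁻¹) (K.mul_mem hf (K.inv_mem hg)) (by
            rw [Pi.mul_apply, Pi.inv_apply, hg2, hfv x (Th.refl K x), mul_inv_cancel])
          rw [Pi.mul_apply, Pi.inv_apply, mul_inv_eq_one, hfv y hy] at h2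
          exact h2.symm
        have hgo : ∀ y, ¬ Th K x y → g y = 1 := fun y hy => hg1 y (by simpa using hy)
        have hm : v * g⁻¹ ∈ K := by
          refine ih _ ?_ ?_
          · have h3 : (Finset.univ.filter fun y => (v * g⁻¹) y ≠ 1) ⊂
                (Finset.univ.filter fun y => v y ≠ 1) := by
              rw [Finset.ssubset_iff_of_subset]
              · refine ⟨x, by simpa using hx, ?_⟩
                simp [hg2]
              · intro y hy
                simp only [Finset.mem_filter, Finset.mem_univ, true_and] at hy ⊢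
                intro h4
                apply hy
                by_cases h5 : Th K x y
                · rw [Pi.mul_apply, Pi.inv_apply, hgv y h5, mul_inv_cancel]
                · rw [Pi.mul_apply, Pi.inv_apply, hgo y h5, h4, inv_one, mul_one]
            have h4 := Finset.card_lt_card h3
            omega
          · intro z
            by_cases hz : Th K x z
            · refine ⟨1, K.one_mem, fun y hy => ?_⟩
              rw [Pi.mul_apply, Pi.inv_apply, hgv y (hz.trans hy), mul_inv_cancel]
              rfl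
            · obtain ⟨e, he, hev⟩ := hv z
              refine ⟨e, he, fun y hy => ?_⟩
              have h5 : ¬ Th K x y := fun h6 => hz (h6.trans (Th.symm hK hy))
              rw [Pi.mul_apply, Pi.inv_apply, hgo y h5, inv_one, mul_one, hev y hy]
        have h6 : v = v * g⁻¹ * g := by rw [inv_mul_cancel_right]
        rw [h6]
        exact K.mul_mem hm hg
      · have h1 : v = 1 := by
          funext x
          by_contra h2
          exact hx ⟨x, h2⟩
        rw [h1]
        exact K.one_mem
  exact hmain _ v le_rfl hv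

end Sub

section Simple

variable {S : Type} [Group S]

theorem eq_one_of_comm [IsSimpleGroup S] (hS : ∃ a b : S, a * b ≠ b * a) {z : S}
    (hz : ∀ g, z * g = g * z) : z = 1 := by
  have h1 : (Subgroup.center S).Normal := inferInstance
  have h2 : z ∈ Subgroup.center S := Subgroup.mem_center_iff.2 fun g => (hz g).symm
  rcases h1.eq_bot_or_eq_top with h | h
  · rwa [h, Subgroup.mem_bot] at h2
  · exfalso
    obtain ⟨a, b, hab⟩ := hS
    have h3 : a ∈ Subgroup.center S := by rw [h]; trivial
    exact hab (Subgroup.mem_center_iff.1 h3 b).symm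

/-- A normal subgroup which contains all commutators is everything. -/
theorem top_of_comm [IsSimpleGroup S] (hS : ∃ a b : S, a * b ≠ b * a) (I : Subgroup S)
    (hn : I.Normal) (hI : ∀ a b, a * b * a⁻¹ * b⁻¹ ∈ I) (u : S) : u ∈ I := by
  rcases hn.eq_bot_or_eq_top with h | h
  · exfalso
    obtain ⟨a, b, hab⟩ := hS
    have h1 := hI a b
    rw [h, Subgroup.mem_bot] at h1
    apply hab
    have h3 := mul_inv_eq_one.1 h1
    calc a * b = a * b * a⁻¹ * a := by group
      _ = b * a := by rw [h3]
  · rw [h]
    trivial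

theorem eq_of_conj [IsSimpleGroup S] (hS : ∃ a b : S, a * b ≠ b * a) {u v : S}
    (h : ∀ g, u * g * u⁻¹ = v * g * v⁻¹) : u = v := by
  have h1 : v⁻¹ * u = 1 := by
    refine eq_one_of_comm hS fun g => ?_
    have h2 := h g
    calc v⁻¹ * u * g = v⁻¹ * (u * g * u⁻¹) * u := by group
      _ = v⁻¹ * (v * g * v⁻¹) * u := by rw [h2]
      _ = g * (v⁻¹ * u) := by group
  exact (inv_mul_eq_one.1 h1).symm

/-- **The dichotomy.** -/
theorem dich [Finite S] [IsSimpleGroup S] (hS : ∃ a b : S, a * b ≠ b * a) (F : S → S → S)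
    (h1 : ∀ g, F 1 g = g) (hm : ∀ c d g, F (c * d) g = F c (F d g))
    (hh : ∀ c g g', F c (g * g') = F c g * F c g')
    (hc : ∀ a c g, a * F c (a⁻¹ * g * a) * a⁻¹ = F (a * c * a⁻¹) g) :
    (∀ c g, F c g = g) ∨ (∀ c g, F c g = c * g * c⁻¹) := by
  have hone : ∀ c, F c 1 = 1 := by
    intro c
    have h2 := hh c 1 1
    rw [mul_one] at h2
    exact left_eq_mul.1 h2
  have hinv : ∀ c g, F c g⁻¹ = (F c g)⁻¹ := by
    intro c g
    have h2 := hh c g⁻¹ g
    rw [inv_mul_cancel, hone] at h2
    exact eq_inv_of_mul_eq_one_left h2.symm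
  have hcan : ∀ c g, F c (F c⁻¹ g) = g := by
    intro c g
    rw [← hm, mul_inv_cancel, h1]
  let I : Subgroup S :=
    { carrier := {u | ∃ e, ∀ g, F u g = e * g * e⁻¹}
      one_mem' := ⟨1, fun g => by rw [h1]; group⟩
      mul_mem' := by
        rintro u v ⟨e, he⟩ ⟨e', he'⟩
        refine ⟨e * e', fun g => ?_⟩
        rw [hm, he', he]
        group
      inv_mem' := by
        rintro u ⟨e, he⟩
        refine ⟨e⁻¹, fun g => ?_⟩
        have h2 := hcan u g
        rw [he] at h2
        calc F u⁻¹ g = e⁻¹ * (e * F u⁻¹ g * e⁻¹) * e := by group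
          _ = e⁻¹ * g * e⁻¹⁻¹ := by rw [h2, inv_inv] }
  have hI : ∀ u, u ∈ I ↔ ∃ e, ∀ g, F u g = e * g * e⁻¹ := fun _ => Iff.rfl
  have hIn : I.Normal := by
    constructor
    rintro u ⟨e, he⟩ v
    refine ⟨F v e, fun g => ?_⟩
    rw [hm, hm, he, hh, hh, hcan, hinv]
  have hIt : ∀ u, u ∈ I := by
    intro u
    refine top_of_comm hS I hIn ?_ u
    intro a c
    refine ⟨a * (F c a)⁻¹, fun g => ?_⟩
    rw [hm, ← hc, hh, hh, hcan, hinv]
    group
  choose e he using fun u => (hI u).1 (hIt u)
  have hem : ∀ u v, e (u * v) = e u * e v := by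
    intro u v
    refine eq_of_conj hS fun g => ?_
    rw [← he, hm, he v, he u]
    group
  let E : S →* S := MonoidHom.mk' e hem
  have hE : ∀ u, E u = e u := fun _ => rfl
  rcases (inferInstance : E.ker.Normal).eq_bot_or_eq_top with h | h
  · right
    have h2 : Function.Injective e := (MonoidHom.ker_eq_bot_iff E).1 h
    have h3 : Function.Surjective e := Finite.injective_iff_surjective.1 h2
    have h4 : ∀ a, a = e a := by
      intro a
      refine eq_of_conj hS fun t => ?_
      obtain ⟨c, rfl⟩ := h3 t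
      have h5 : a * e c * a⁻¹ = e (a * c * a⁻¹) := by
        refine eq_of_conj hS fun g => ?_
        rw [← he, ← hc, he]
        group
      rw [h5, hem, hem]
      have h6 : e a⁻¹ = (e a)⁻¹ := map_inv E a
      rw [h6]
    intro c g
    rw [he, ← h4]
  · left
    intro c g
    have h2 : c ∈ E.ker := by rw [h]; trivial
    have h3 : e c = 1 := h2
    rw [he, h3]
    group

/-- An action with commuting values is trivial. -/
theorem triv_of_comm [IsSimpleGroup S] (hS : ∃ a b : S, a * b ≠ b * a) (F : S → S → S)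
    (h1 : ∀ g, F 1 g = g) (hm : ∀ c d g, F (c * d) g = F d (F c g))
    (hc : ∀ c d g, F c (F d g) = F d (F c g)) (c g : S) : F c g = g := by
  let I : Subgroup S :=
    { carrier := {u | ∀ g, F u g = g}
      one_mem' := h1
      mul_mem' := by
        intro u v hu hv g
        rw [hm, hu, hv]
      inv_mem' := by
        intro u hu g
        have h2 : F u⁻¹ (F u g) = g := by rw [← hm, mul_inv_cancel, h1]
        rwa [hu] at h2 }
  have hIn : I.Normal := by
    constructor
    intro u hu v g
    rw [hm, hm, hu, ← hm, mul_inv_cancel, h1]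
  refine top_of_comm hS I hIn ?_ c g
  intro a b g
  rw [hm, hm, hm, hc a⁻¹ b, ← hm a a⁻¹, mul_inv_cancel, h1, ← hm, mul_inv_cancel, h1]

end Simple

end Vale.Agent.P183.H491
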