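import Vale.Agent.P183.H491.Ovr

/-!
The interval above the bottom group is the lattice `exc3 1`.
-/

set_option autoImplicit false

namespace Vale.Agent.P183.H491

open Vale.Agent.P183 Vale.Agent.P183.H996 Vale.Agent.P183.H552

section

variable {S : Type} [Group S]

/-- The witnesses. -/
def wit (a : S) : ℕ → W S
  | 0 => ⟨fun _ => a, 1⟩
  | 1 => ⟨f2, 1⟩
  | 2 => ⟨f3, 1⟩
  | 3 => ⟨fun _ => 1, SemidirectProduct.inr (Equiv.swap 0 1)⟩
  | _ => ⟨fun x => x.1 0 1, SemidirectProduct.inr (Equiv.swap 0 1)⟩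

/-- The memberships of the witnesses. -/
def cod : ℕ → ℕ → Bool
  | 0, _ => false
  | 1, k => k == 0
  | 2, k => k == 0 || k == 1
  | 3, k => k == 2
  | 4, k => k == 0 || k == 1 || k == 2
  | 5, k => k == 0 || k == 3
  | 6, k => k == 4
  | _, _ => true

theorem mk_mem_KX {X : Subgroup (Om S → S)} {hX : Inv X} {f : Om S → S} :
    (⟨f, 1⟩ : W S) ∈ KX X hX ↔ f ∈ X := by
  rw [mem_KX]
  have h1 : (fun x => f x * ((1 : Yb S).left 0)⁻¹) = f := by
    funext x
    change f x * 1⁻¹ = f x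
    rw [inv_one, mul_one]
  constructor
  · rintro ⟨_, h⟩
    rw [← h1]
    exact h
  · intro h
    refine ⟨rfl, ?_⟩
    change (fun x => f x * ((1 : Yb S).left 0)⁻¹) ∈ X
    rw [h1]
    exact h

theorem mk_not_mem_KX {X : Subgroup (Om S → S)} {hX : Inv X} {f : Om S → S} :
    (⟨f, SemidirectProduct.inr (Equiv.swap 0 1)⟩ : W S) ∉ KX X hX := by
  rw [mem_KX]
  rintro ⟨h, _⟩
  have h1 : (Equiv.swap (0 : Fin 3) 1) 0 = 0 := h
  exact absurd h1 (by decide)

theorem mk_mem_K5 {f : Om S → S} {y : Yb S} : (⟨f, y⟩ : W S) ∈ K5 S ↔ f ∈ D1 S := Iff.rfl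

theorem mk_mem_K6 {f : Om S → S} : (⟨f, 1⟩ : W S) ∈ K6 S ↔ f = 1 := by
  rw [mem_K6]
  have h1 : ∀ x : Om S, x.1 0 ((1 : Yb S).right 0) * (1 : Yb S).left ((1 : Yb S).right 0) = 1 := by
    intro x
    change x.1 0 0 * 1 = 1
    rw [x.self, one_mul]
  constructor
  · intro h
    funext x
    exact (h x).trans (h1 x)
  · intro h x
    rw [h]
    exact (h1 x).symm

theorem mk_mem_K6' {f : Om S → S} :
    (⟨f, SemidirectProduct.inr (Equiv.swap 0 1)⟩ : W S) ∈ K6 S ↔ ∀ x, f x = x.1 0 1 := by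
  rw [mem_K6]
  refine forall_congr' fun x => ?_
  change f x = x.1 0 1 * 1 ↔ _
  rw [mul_one]

theorem D1_le_X1 : D1 S ≤ X1 S := by
  intro f hf x c
  rw [mem_D1.1 hf, mem_D1.1 hf (pt x)]

theorem KD1_le_K5 : KX (D1 S) inv_D1 ≤ K5 S := by
  rintro w ⟨_, h⟩ x
  exact mul_right_cancel (h x)

theorem R_le_K6 : KX (⊥ : Subgroup (Om S → S)) inv_bot ≤ K6 S := by
  intro w hw x
  obtain ⟨h1, h2⟩ := mem_R.1 hw
  rw [h2, h1, x.self, one_mul]

section wits

variable {a b : S} (hab : a * b ≠ b * a)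

include hab

theorem a_ne : a ≠ 1 := by
  rintro rfl
  exact hab (by rw [one_mul, mul_one])

theorem b_ne : b ≠ 1 := by
  rintro rfl
  exact hab (by rw [one_mul, mul_one])

theorem c_not_bot : (fun _ : Om S => a) ∉ (⊥ : Subgroup (Om S → S)) := by
  intro h
  rw [Subgroup.mem_bot] at h
  exact a_ne hab (congrFun h (pt 1))

omit hab in
theorem c_D1 (a : S) : (fun _ : Om S => a) ∈ D1 S := fun _ => rfl

theorem c_X2 : (fun _ : Om S => a) ∉ X2 S := by
  intro h
  have h1 := h 1 b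
  simp only [Pi.one_apply, one_mul, inv_one, mul_one] at h1
  apply hab
  calc a * b = b * a * b⁻¹ * b := by rw [← h1]
    _ = b * a := by group

theorem f2_D1 : (f2 : Om S → S) ∉ D1 S := by
  intro h
  have h1 := h (pt (e1 a))
  simp [f2, pt_apply, e1] at h1
  exact a_ne hab h1

theorem f2_bot : (f2 : Om S → S) ∉ (⊥ : Subgroup (Om S → S)) := by
  intro h
  rw [Subgroup.mem_bot] at h
  exact f2_D1 hab (by rw [h]; exact (D1 S).one_mem)

theorem f2_X2 : (f2 : Om S → S) ∉ X2 S := by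
  intro h
  have h1 := h (e1 a) b
  simp [f2, pt_apply, e1, e0] at h1
  apply hab
  calc a * b = b * a * b⁻¹ * b := by rw [← h1]
    _ = b * a := by group

theorem f3_D1 : (f3 : Om S → S) ∉ D1 S := by
  intro h
  have h1 := h (pt (e1 a))
  simp [f3, pt_apply, e1] at h1
  exact a_ne hab h1

theorem f3_bot : (f3 : Om S → S) ∉ (⊥ : Subgroup (Om S → S)) := by
  intro h
  rw [Subgroup.mem_bot] at h
  exact f3_D1 hab (by rw [h]; exact (D1 S).one_mem)

theorem f3_X1 : (f3 : Om S → S) ∉ X1 S := by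
  intro h
  have h1 := h (e1 a) b
  simp [f3, pt_apply, e1, e0] at h1
  apply hab
  calc a * b = b * (a * b⁻¹) * b := by rw [h1]
    _ = b * a := by group

theorem f6_D1 : (fun x : Om S => x.1 0 1) ∉ D1 S := by
  intro h
  have h1 := h (pt (e1 a))
  simp [pt_apply, e1] at h1
  exact a_ne hab h1

theorem c_K6 : (⟨fun _ => a, 1⟩ : W S) ∉ K6 S := by
  rw [mk_mem_K6]
  exact fun h => c_not_bot hab (Subgroup.mem_bot.2 h)

theorem f2_K6 : (⟨f2, 1⟩ : W S) ∉ K6 S := by
  rw [mk_mem_K6]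
  exact fun h => f2_bot hab (Subgroup.mem_bot.2 h)

theorem f3_K6 : (⟨f3, 1⟩ : W S) ∉ K6 S := by
  rw [mk_mem_K6]
  exact fun h => f3_bot hab (Subgroup.mem_bot.2 h)

theorem one_K6 : (⟨fun _ => 1, SemidirectProduct.inr (Equiv.swap 0 1)⟩ : W S) ∉ K6 S := by
  rw [mk_mem_K6']
  intro h
  have h1 := h (pt (e1 a))
  simp [pt_apply, e1] at h1
  exact a_ne hab h1

theorem wit_mem : ∀ i < 8, ∀ k < 5, (wit a k ∈ sub S i ↔ cod i k = true) := by
  have t1 : (fun _ : Om S => a) ∈ X1 S := D1_le_X1 (c_D1 a)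
  have t2 := c_not_bot hab
  have t3 := c_D1 a
  have t4 := c_X2 hab
  have t5 : (f2 : Om S → S) ∈ X1 S := f2_mem
  have t6 := f2_D1 hab
  have t7 := f2_bot hab
  have t8 := f2_X2 hab
  have t9 : (f3 : Om S → S) ∈ X2 S := f3_mem
  have t10 := f3_D1 hab
  have t11 := f3_bot hab
  have t12 := f3_X1 hab
  have t13 := f6_D1 hab
  have t14 : (fun _ : Om S => (1 : S)) ∈ D1 S := fun _ => rfl
  intro i hi k hk
  interval_cases i <;> interval_cases k <;>
    simp only [sub, wit, cod, mk_mem_KX, mk_not_mem_KX, mk_mem_K5, c_K6 hab, f2_K6 hab,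
      f3_K6 hab, one_K6 hab, mk_mem_K6', t1, t2, t3, t4, t5, t6, t7, t8, t9, t10, t11, t12, t13,
      t14, Subgroup.mem_top] <;> simp

end wits

theorem cod_dec : ∀ i : Fin 8, ∀ j : Fin 8, (∀ k : Fin 5, cod i.val k.val = true →
    cod j.val k.val = true) → (i.val = j.val ∨ i.val = 0 ∨ j.val = 7 ∨
      (i.val, j.val) ∈ exc3 1) := by
  decide +kernel

theorem sub_iff {a b : S} (hab : a * b ≠ b * a) (i j : Fin 8) :
    sub S i.val ≤ sub S j.val ↔
      (i.val = j.val ∨ i.val = 0 ∨ j.val = 7 ∨ (i.val, j.val) ∈ exc3 1) := by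
  constructor
  · intro h
    refine cod_dec i j fun k hk => ?_
    rw [← wit_mem hab j.val j.isLt k.val k.isLt]
    exact h ((wit_mem hab i.val i.isLt k.val k.isLt).2 hk)
  · rintro (h | h | h | h)
    · rw [h]
    · rw [h]
      obtain ⟨j, hj⟩ := j
      change sub S 0 ≤ sub S j
      interval_cases j
      · exact le_rfl
      · exact KX_mono inv_bot inv_D1 bot_le
      · exact KX_mono inv_bot inv_X1 bot_le
      · exact KX_mono inv_bot inv_X2 bot_le
      · exact KX_mono inv_bot inv_top bot_le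
      · exact (KX_mono inv_bot inv_D1 bot_le).trans KD1_le_K5
      · exact R_le_K6
      · exact le_top
    · rw [h]
      exact le_top
    · simp only [exc3, List.mem_cons, Prod.mk.injEq, List.not_mem_nil, or_false] at h
      rcases h with ⟨h, h'⟩ | ⟨h, h'⟩ | ⟨h, h'⟩ | ⟨h, h'⟩ | ⟨h, h'⟩ <;> rw [h, h']
      · exact KX_mono inv_D1 inv_X1 D1_le_X1
      · exact KX_mono inv_D1 inv_top le_top
      · exact KD1_le_K5
      · exact KX_mono inv_X1 inv_top le_top
      · exact KX_mono inv_X2 inv_top le_top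

theorem exc_antisymm : ∀ i j : Fin 8, (i.val = j.val ∨ i.val = 0 ∨ j.val = 7 ∨
    (i.val, j.val) ∈ exc3 1) → (j.val = i.val ∨ j.val = 0 ∨ i.val = 7 ∨
    (j.val, i.val) ∈ exc3 1) → i = j := by
  decide +kernel

/-- **The interval.** -/
theorem interval_iso [Finite S] [IsSimpleGroup S] (hS : ∃ a b : S, a * b ≠ b * a) :
    Nonempty (Ord8 (exc3 1) ≃o
      {K : Subgroup (W S) // KX (⊥ : Subgroup (Om S → S)) inv_bot ≤ K}) := by
  obtain ⟨a, b, hab⟩ := id hS
  have hle := sub_iff hab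
  have h0 : ∀ i : Fin 8, sub S 0 ≤ sub S i.val := fun i =>
    (hle 0 i).2 (Or.inr (Or.inl rfl))
  let f : Ord8 (exc3 1) → {K : Subgroup (W S) // KX (⊥ : Subgroup (Om S → S)) inv_bot ≤ K} :=
    fun x => ⟨sub S (Fin.val (n := 8) x), h0 x⟩
  have hf : ∀ x y : Ord8 (exc3 1), f x ≤ f y ↔ x ≤ y := fun x y => hle x y
  have hinj : Function.Injective f := by
    intro x z hxz
    exact exc_antisymm x z ((hf x z).1 (le_of_eq hxz)) ((hf z x).1 (le_of_eq hxz.symm))
  have hsurj : Function.Surjective f := by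
    rintro ⟨K, hK⟩
    obtain ⟨i, hi, rfl⟩ := overgroups hS hK
    exact ⟨(⟨i, hi⟩ : Fin 8), rfl⟩
  exact ⟨⟨Equiv.ofBijective f ⟨hinj, hsurj⟩, fun {x y} => hf x y⟩⟩

end

/-- `exc3 1` is an interval in the subgroup lattice of a finite group. -/
theorem gi_exc1 : GroupInterval (Ord8 (exc3 1)) := by
  let S : Type := alternatingGroup (Fin 5)
  have : IsSimpleGroup S := alternatingGroup.isSimpleGroup (by simp)
  have hS : ∃ a b : S, a * b ≠ b * a := alternatingFive_noncomm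
  have hSf : Finite S := inferInstanceAs (Finite (alternatingGroup (Fin 5)))
  exact ⟨W S, inferInstance, inferInstance, _, interval_iso hS⟩

end Vale.Agent.P183.H491
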