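import Vale.Agent.P183.H996.Dual
import Vale.Agent.P183.H491.Gen

/-!
The group `S^Ω ⋊ (S ≀ S₃)`, where `Ω` is the set of `3 × 3` tables `x i * (x j)⁻¹`.
-/

set_option autoImplicit false

namespace Vale.Agent.P183.H491

open Vale.Agent.P183 Vale.Agent.P183.H996

/-- The wreath product `S ≀ S₃`. -/
abbrev Yb (S : Type) [Group S] : Type :=
  (Fin 3 → S) ⋊[shift (Equiv.Perm (Fin 3)) (Fin 3) S] Equiv.Perm (Fin 3)

/-- The tables `w i j = x i * (x j)⁻¹`. -/
def Om (S : Type) [Group S] : Type := {w : Fin 3 → Fin 3 → S // ∀ i j k, w i j * w j k = w i k}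

section

variable {S : Type} [Group S]

theorem Om.ext {w w' : Om S} (h : ∀ i j, w.1 i j = w'.1 i j) : w = w' :=
  Subtype.ext (funext fun i => funext fun j => h i j)

theorem Om.self (w : Om S) (i : Fin 3) : w.1 i i = 1 := by
  have h := w.2 i i i
  exact mul_eq_left.1 h

instance [Finite S] : Finite (Om S) :=
  inferInstanceAs (Finite {w : Fin 3 → Fin 3 → S // ∀ i j k, w i j * w j k = w i k})

/-- The table of `x`. -/
def pt (x : Fin 3 → S) : Om S := ⟨fun i j => x i * (x j)⁻¹, fun i j k => by group⟩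

theorem pt_apply (x : Fin 3 → S) (i j : Fin 3) : (pt x).1 i j = x i * (x j)⁻¹ := rfl

theorem Om.eq_pt (w : Om S) : w = pt (fun i => w.1 i 0) := by
  apply Om.ext
  intro i j
  rw [pt_apply, eq_mul_inv_iff_mul_eq]
  exact w.2 i j 0

theorem pt_const (x : Fin 3 → S) (s : S) : pt (fun i => x i * s) = pt x := by
  apply Om.ext
  intro i j
  rw [pt_apply, pt_apply]
  group

instance : MulAction (Yb S) (Om S) where
  smul y w := ⟨fun i j => y.left i * w.1 (y.right⁻¹ i) (y.right⁻¹ j) * (y.left j)⁻¹, by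
    intro i j k
    have h := w.2 (y.right⁻¹ i) (y.right⁻¹ j) (y.right⁻¹ k)
    change y.left i * w.1 (y.right⁻¹ i) (y.right⁻¹ j) * (y.left j)⁻¹ *
      (y.left j * w.1 (y.right⁻¹ j) (y.right⁻¹ k) * (y.left k)⁻¹) =
      y.left i * w.1 (y.right⁻¹ i) (y.right⁻¹ k) * (y.left k)⁻¹
    rw [← h]
    group⟩
  one_smul w := by
    apply Om.ext
    intro i j
    change 1 * w.1 i j * 1⁻¹ = w.1 i j
    group
  mul_smul y z w := by
    apply Om.ext
    intro i j
    change (y * z).left i * w.1 ((y * z).right⁻¹ i) ((y * z).right⁻¹ j) * ((y * z).left j)⁻¹ =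
      y.left i * (z.left (y.right⁻¹ i) * w.1 (z.right⁻¹ (y.right⁻¹ i)) (z.right⁻¹ (y.right⁻¹ j)) *
        (z.left (y.right⁻¹ j))⁻¹) * (y.left j)⁻¹
    have h1 : ∀ k, (y * z).left k = y.left k * z.left (y.right⁻¹ k) := fun _ => rfl
    have h2 : ∀ k, (y * z).right⁻¹ k = z.right⁻¹ (y.right⁻¹ k) := by
      intro k
      rw [SemidirectProduct.mul_right, mul_inv_rev]
      rfl
    rw [h1, h1, h2, h2]
    group

theorem smul_apply (y : Yb S) (w : Om S) (i j : Fin 3) :
    (y • w).1 i j = y.left i * w.1 (y.right⁻¹ i) (y.right⁻¹ j) * (y.left j)⁻¹ := rfl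

/-- The action on triples. -/
def act (y : Yb S) (x : Fin 3 → S) : Fin 3 → S := fun i => y.left i * x (y.right⁻¹ i)

theorem smul_pt (y : Yb S) (x : Fin 3 → S) : y • pt x = pt (act y x) := by
  apply Om.ext
  intro i j
  rw [smul_apply, pt_apply, pt_apply, act, act]
  group

/-- The whole group. -/
abbrev W (S : Type) [Group S] : Type := (Om S → S) ⋊[shift (Yb S) (Om S) S] Yb S

theorem W.mul_left' (v w : W S) (x : Om S) :
    (v * w).left x = v.left x * w.left (v.right⁻¹ • x) := rfl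

theorem W.inv_left' (v : W S) (x : Om S) : (v⁻¹).left x = (v.left (v.right • x))⁻¹ := by
  have h : (v⁻¹).left x = (v.left (v.right⁻¹⁻¹ • x))⁻¹ := rfl
  rw [h, inv_inv]

theorem Yb.mul_left' (y z : Yb S) (i : Fin 3) :
    (y * z).left i = y.left i * z.left (y.right⁻¹ i) := rfl

theorem Yb.inv_left' (y : Yb S) (i : Fin 3) : (y⁻¹).left i = (y.left (y.right i))⁻¹ := by
  have h : (y⁻¹).left i = (y.left (y.right⁻¹⁻¹ i))⁻¹ := rfl
  rw [h, inv_inv]

instance [Finite S] : Finite (Yb S) :=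
  Finite.of_equiv _ (SemidirectProduct.equivProd
    (φ := shift (Equiv.Perm (Fin 3)) (Fin 3) S)).symm

instance [Finite S] : Finite (W S) :=
  Finite.of_equiv _ (SemidirectProduct.equivProd (φ := shift (Yb S) (Om S) S)).symm

/-- Invariance under the bottom group. -/
def Inv (X : Subgroup (Om S → S)) : Prop :=
  ∀ y : Yb S, y.right 0 = 0 → ∀ f ∈ X, (fun w => (y.left 0)⁻¹ * f (y • w) * y.left 0) ∈ X

theorem right_inv_zero {y : Yb S} (h : y.right 0 = 0) : y.right⁻¹ 0 = 0 := by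
  rw [Equiv.Perm.inv_eq_iff_eq]
  exact h.symm

/-- The subgroup of `W S` given by an invariant subgroup of the base. -/
def KX (X : Subgroup (Om S → S)) (hX : Inv X) : Subgroup (W S) where
  carrier := {w | w.right.right 0 = 0 ∧ (fun x => w.left x * (w.right.left 0)⁻¹) ∈ X}
  one_mem' := ⟨rfl, by
    have h : (fun x => (1 : W S).left x * ((1 : W S).right.left 0)⁻¹) = (1 : Om S → S) := by
      funext x
      change (1 : S) * 1⁻¹ = 1
      group
    rw [h]
    exact X.one_mem⟩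
  mul_mem' := by
    rintro v w ⟨hv, hv'⟩ ⟨hw, hw'⟩
    refine ⟨?_, ?_⟩
    · change v.right.right (w.right.right 0) = 0
      rw [hw, hv]
    · have h1 : (v.right⁻¹).right 0 = 0 := right_inv_zero hv
      have h2 := hX v.right⁻¹ h1 _ hw'
      rw [Yb.inv_left', hv] at h2
      have h3 := X.mul_mem hv' h2
      have h4 : (fun x => (v * w).left x * ((v * w).right.left 0)⁻¹) =
          (fun x => v.left x * (v.right.left 0)⁻¹) *
            (fun x => ((v.right.left 0)⁻¹)⁻¹ * (w.left (v.right⁻¹ • x) * (w.right.left 0)⁻¹) *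
              (v.right.left 0)⁻¹) := by
        funext x
        rw [Pi.mul_apply, W.mul_left', SemidirectProduct.mul_right, Yb.mul_left',
          right_inv_zero hv]
        group
      rw [h4]
      exact h3
  inv_mem' := by
    rintro v ⟨hv, hv'⟩
    refine ⟨right_inv_zero hv, ?_⟩
    have h2 := X.inv_mem (hX v.right hv _ hv')
    have h4 : (fun x => (v⁻¹).left x * ((v⁻¹).right.left 0)⁻¹) =
        (fun x => (v.right.left 0)⁻¹ * (v.left (v.right • x) * (v.right.left 0)⁻¹) *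
              v.right.left 0)⁻¹ := by
      funext x
      rw [Pi.inv_apply, W.inv_left', SemidirectProduct.inv_right, Yb.inv_left', hv]
      group
    rw [h4]
    exact h2

theorem mem_KX {X : Subgroup (Om S → S)} {hX : Inv X} {w : W S} :
    w ∈ KX X hX ↔ w.right.right 0 = 0 ∧ (fun x => w.left x * (w.right.left 0)⁻¹) ∈ X := Iff.rfl

theorem KX_mono {X Y : Subgroup (Om S → S)} (hX : Inv X) (hY : Inv Y) (h : X ≤ Y) :
    KX X hX ≤ KX Y hY := fun _ hw => ⟨hw.1, h hw.2⟩

/-- The triple `(c, 1, 1)`. -/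
def e0 (c : S) : Fin 3 → S := fun i => if i = 0 then c else 1

theorem act_e0 (y : Yb S) (hy : y.right 0 = 0) (x : Fin 3 → S) (c : S) :
    act y (fun i => x i * e0 c i) = fun i => act y x i * e0 c i := by
  funext i
  have h1 : e0 c (y.right⁻¹ i) = e0 c i := by
    have h2 : y.right⁻¹ i = 0 ↔ i = 0 := by
      rw [Equiv.Perm.inv_eq_iff_eq, hy]
    simp only [e0, h2]
  rw [act, act, h1, mul_assoc]

theorem act_zero (y : Yb S) (hy : y.right 0 = 0) (x : Fin 3 → S) :
    act y x 0 = y.left 0 * x 0 := by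
  rw [act, right_inv_zero hy]

theorem inv_bot : Inv (⊥ : Subgroup (Om S → S)) := by
  intro y _ f hf
  rw [Subgroup.mem_bot] at hf ⊢
  rw [hf]
  funext x
  change (y.left 0)⁻¹ * 1 * y.left 0 = 1
  group

theorem inv_top : Inv (⊤ : Subgroup (Om S → S)) := fun _ _ _ _ => trivial

/-- The constant functions. -/
def D1 (S : Type) [Group S] : Subgroup (Om S → S) where
  carrier := {f | ∀ x, f x = f (pt 1)}
  one_mem' := fun _ => rfl
  mul_mem' := by
    intro f g hf hg x
    rw [Pi.mul_apply, Pi.mul_apply, hf, hg]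
  inv_mem' := by
    intro f hf x
    rw [Pi.inv_apply, Pi.inv_apply, hf]

theorem mem_D1 {f : Om S → S} : f ∈ D1 S ↔ ∀ x, f x = f (pt 1) := Iff.rfl

theorem inv_D1 : Inv (D1 S) := by
  intro y _ f hf x
  rw [mem_D1] at hf
  change (y.left 0)⁻¹ * f (y • x) * y.left 0 = (y.left 0)⁻¹ * f (y • pt 1) * y.left 0
  rw [hf (y • x), hf (y • pt 1)]

/-- The functions that do not depend on the first coordinate. -/
def X1 (S : Type) [Group S] : Subgroup (Om S → S) where
  carrier := {f | ∀ (x : Fin 3 → S) (c : S), f (pt fun i => x i * e0 c i) = f (pt x)}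
  one_mem' := fun _ _ => rfl
  mul_mem' := by
    intro f g hf hg x c
    rw [Pi.mul_apply, Pi.mul_apply, hf, hg]
  inv_mem' := by
    intro f hf x c
    rw [Pi.inv_apply, Pi.inv_apply, hf]

theorem mem_X1 {f : Om S → S} : f ∈ X1 S ↔
    ∀ (x : Fin 3 → S) (c : S), f (pt fun i => x i * e0 c i) = f (pt x) := Iff.rfl

theorem inv_X1 : Inv (X1 S) := by
  intro y hy f hf x c
  rw [mem_X1] at hf
  change (y.left 0)⁻¹ * f (y • pt _) * y.left 0 = (y.left 0)⁻¹ * f (y • pt x) * y.left 0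
  rw [smul_pt, smul_pt, act_e0 y hy, hf]

/-- The second twisted block subgroup. -/
def X2 (S : Type) [Group S] : Subgroup (Om S → S) where
  carrier := {f | ∀ (x : Fin 3 → S) (c : S), f (pt fun i => x i * e0 c i) =
    x 0 * c * (x 0)⁻¹ * f (pt x) * (x 0 * c * (x 0)⁻¹)⁻¹}
  one_mem' := by
    intro x c
    change (1 : S) = x 0 * c * (x 0)⁻¹ * 1 * (x 0 * c * (x 0)⁻¹)⁻¹
    group
  mul_mem' := by
    intro f g hf hg x c
    rw [Pi.mul_apply, Pi.mul_apply, hf, hg]
    group
  inv_mem' := by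
    intro f hf x c
    rw [Pi.inv_apply, Pi.inv_apply, hf]
    group

theorem mem_X2 {f : Om S → S} : f ∈ X2 S ↔
    ∀ (x : Fin 3 → S) (c : S), f (pt fun i => x i * e0 c i) =
      x 0 * c * (x 0)⁻¹ * f (pt x) * (x 0 * c * (x 0)⁻¹)⁻¹ := Iff.rfl

theorem inv_X2 : Inv (X2 S) := by
  intro y hy f hf x c
  rw [mem_X2] at hf
  change (y.left 0)⁻¹ * f (y • pt _) * y.left 0 =
    x 0 * c * (x 0)⁻¹ * ((y.left 0)⁻¹ * f (y • pt x) * y.left 0) * (x 0 * c * (x 0)⁻¹)⁻¹
  rw [smul_pt, smul_pt, act_e0 y hy, hf, act_zero y hy]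
  group

end

end Vale.Agent.P183.H491
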