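import Vale.Agent.P183.H491.Iso
import Vale.Agent.P183.H552.Fin510

/-!
Lattices with at most eight elements: one possible exception.
-/

set_option autoImplicit false

namespace Vale.Agent.P183.H491

open Vale.Agent.P183 Vale.Agent.P183.H996 Vale.Agent.P183.H552

theorem rep_exc1 : Representable (Ord8 (exc3 1)) := GroupInterval.rep gi_exc1

theorem rep_exc1_dual : Representable (Ord8 (exc3 1))ᵒᵈ :=
  GroupInterval.rep (GroupInterval.dual gi_exc1)

/-- **Lattices with at most eight elements.** -/
theorem one_exception (L : Type) [Lattice L] [Finite L] [Nonempty L] (h : Nat.card L ≤ 8) :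
    Representable L ∨ Nonempty (L ≃o Ord8 (exc3 0)) ∨ Nonempty (L ≃o (Ord8 (exc3 0))ᵒᵈ) := by
  rcases two_exceptions rep_exc L h with h1 | ⟨i, hi, h1⟩
  · exact Or.inl h1
  · interval_cases i
    · exact Or.inr h1
    · left
      rcases h1 with ⟨⟨e⟩⟩ | ⟨⟨e⟩⟩
      · exact Representable.of_iso e rep_exc1
      · exact Representable.of_iso e rep_exc1_dual

theorem eight_iff_one :
    (∀ (L : Type) [Lattice L] [Finite L] [Nonempty L], Nat.card L ≤ 8 → Representable L) ↔
      Representable (Ord8 (exc3 0)) := by
  refine (eight_iff_two rep_exc).trans ⟨fun h => h 0 (by norm_num), fun h i hi => ?_⟩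
  interval_cases i
  · exact h
  · exact rep_exc1

end Vale.Agent.P183.H491
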