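import Vale.Agent.P183.H491.Cls
import Vale.Agent.P183.H552.Defs
import Vale.Agent.P183.H552.Ord

/-!
The eight overgroups.
-/

set_option autoImplicit false

namespace Vale.Agent.P183.H491

open Vale.Agent.P183 Vale.Agent.P183.H996 Vale.Agent.P183.H552

theorem pinv (σ : Equiv.Perm (Fin 3)) (i : Fin 3) : σ⁻¹ (σ i) = i := σ.symm_apply_apply i
theorem pinv' (σ : Equiv.Perm (Fin 3)) (i : Fin 3) : σ (σ⁻¹ i) = i := σ.apply_symm_apply i

section

variable {S : Type} [Group S]

theorem Om.symm' (x : Om S) (i j : Fin 3) : x.1 i j = (x.1 j i)⁻¹ := by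
  have h := x.2 i j i
  rw [x.self] at h
  exact eq_inv_of_mul_eq_one_left h

theorem inv_smul_apply (y : Yb S) (x : Om S) (i j : Fin 3) :
    (y⁻¹ • x).1 i j =
      (y.left (y.right i))⁻¹ * x.1 (y.right i) (y.right j) * y.left (y.right j) := by
  rw [smul_apply, Yb.inv_left', Yb.inv_left', SemidirectProduct.inv_right, inv_inv, inv_inv]

/-- The direct product. -/
def K5 (S : Type) [Group S] : Subgroup (W S) where
  carrier := {w | ∀ x, w.left x = w.left (pt 1)}
  one_mem' := fun _ => rfl
  mul_mem' := by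
    intro v w hv hw x
    rw [W.mul_left', W.mul_left', hv, hw, hw (v.right⁻¹ • pt 1)]
  inv_mem' := by
    intro v hv x
    rw [W.inv_left', W.inv_left', hv, hv (v.right • pt 1)]

theorem mem_K5 {w : W S} : w ∈ K5 S ↔ ∀ x, w.left x = w.left (pt 1) := Iff.rfl

/-- The twisted complement. -/
def K6 (S : Type) [Group S] : Subgroup (W S) where
  carrier := {w | ∀ x, w.left x = x.1 0 (w.right.right 0) * w.right.left (w.right.right 0)}
  one_mem' := by
    intro x
    change (1 : S) = x.1 0 0 * 1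
    rw [x.self, mul_one]
  mul_mem' := by
    intro v w hv hw x
    have hv' := hv x
    have hw' := hw (v.right⁻¹ • x)
    have h1 : (v * w).right.right 0 = v.right.right (w.right.right 0) := rfl
    rw [W.mul_left', hv', hw', h1, SemidirectProduct.mul_right, Yb.mul_left', inv_smul_apply,
      pinv, ← x.2 0 (v.right.right 0) (v.right.right (w.right.right 0))]
    group
  inv_mem' := by
    intro v hv x
    have hv' := hv (v.right • x)
    have h1 : (v⁻¹).right.right 0 = v.right.right⁻¹ 0 := rfl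
    rw [W.inv_left', hv', h1, SemidirectProduct.inv_right, Yb.inv_left', smul_apply,
      pinv, pinv', x.symm' 0]
    group

theorem mem_K6 {w : W S} : w ∈ K6 S ↔
    ∀ x, w.left x = x.1 0 (w.right.right 0) * w.right.left (w.right.right 0) := Iff.rfl

/-- The eight overgroups. -/
def sub (S : Type) [Group S] : ℕ → Subgroup (W S)
  | 0 => KX ⊥ inv_bot
  | 1 => KX (D1 S) inv_D1
  | 2 => KX (X1 S) inv_X1
  | 3 => KX (X2 S) inv_X2
  | 4 => KX ⊤ inv_top
  | 5 => K5 S
  | 6 => K6 S
  | _ => ⊤

theorem mem_R {w : W S} : w ∈ KX (⊥ : Subgroup (Om S → S)) inv_bot ↔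
    w.right.right 0 = 0 ∧ ∀ x, w.left x = w.right.left 0 := by
  rw [mem_KX, Subgroup.mem_bot]
  refine and_congr_right fun _ => ⟨fun h x => ?_, fun h => ?_⟩
  · exact mul_inv_eq_one.1 (congrFun h x)
  · funext x
    rw [h x, mul_inv_cancel]
    rfl

/-- The element of the bottom group over `y`. -/
def rr (y : Yb S) : W S := ⟨fun _ => y.left 0, y⟩

theorem rr_mem (y : Yb S) (hy : y.right 0 = 0) :
    rr y ∈ KX (⊥ : Subgroup (Om S → S)) inv_bot := mem_R.2 ⟨hy, fun _ => rfl⟩

theorem W.ext' {v w : W S} (h : ∀ x, v.left x = w.left x) (h' : v.right = w.right) : v = w :=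
  SemidirectProduct.ext (funext h) h'

theorem W.conj_inl (k : W S) (f : Om S → S) :
    k * SemidirectProduct.inl f * k⁻¹ =
      (SemidirectProduct.inl fun x => k.left x * f (k.right⁻¹ • x) * (k.left x)⁻¹ : W S) := by
  refine W.ext' (fun x => ?_) ?_
  · rw [W.mul_left', W.mul_left', W.inv_left', SemidirectProduct.mul_right,
      SemidirectProduct.right_inl, mul_one, smul_inv_smul]
    rfl
  · rw [SemidirectProduct.mul_right, SemidirectProduct.mul_right, SemidirectProduct.inv_right,
      SemidirectProduct.right_inl, SemidirectProduct.right_inl, mul_one, mul_inv_cancel]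

theorem W.eq_inl_mul {w k : W S} (h : w.right = k.right) :
    w = SemidirectProduct.inl (w.left * k.left⁻¹) * k := by
  refine W.ext' (fun x => ?_) ?_
  · rw [W.mul_left', SemidirectProduct.left_inl, SemidirectProduct.right_inl, inv_one, one_smul,
      Pi.mul_apply, Pi.inv_apply, inv_mul_cancel_right]
  · rw [SemidirectProduct.mul_right, SemidirectProduct.right_inl, one_mul, h]

theorem inv_comap {K : Subgroup (W S)} (hR : KX ⊥ inv_bot ≤ K) :
    Inv (K.comap (SemidirectProduct.inl : (Om S → S) →* W S)) := by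
  intro y hy f hf
  have h1 := hR (rr_mem y hy)
  have h2 := K.mul_mem (K.mul_mem (K.inv_mem h1) hf) (K.inv_mem (K.inv_mem h1))
  rw [W.conj_inl] at h2
  refine (congrArg (fun z => z ∈ K) (congrArg SemidirectProduct.inl (funext fun x => ?_))).mp h2
  rw [W.inv_left', SemidirectProduct.inv_right, inv_inv]
  change (y.left 0)⁻¹ * f (y • x) * ((y.left 0)⁻¹)⁻¹ = _
  rw [inv_inv]

theorem eq_KX {K : Subgroup (W S)} (hR : KX ⊥ inv_bot ≤ K) (h0 : ∀ k ∈ K, k.right.right 0 = 0) :
    K = KX (K.comap (SemidirectProduct.inl : (Om S → S) →* W S)) (inv_comap hR) := by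
  have key : ∀ w : W S, w.right.right 0 = 0 → (w ∈ K ↔
      (fun x => w.left x * (w.right.left 0)⁻¹) ∈
        K.comap (SemidirectProduct.inl : (Om S → S) →* W S)) := by
    intro w hw
    have h1 : w = SemidirectProduct.inl (w.left * (rr w.right).left⁻¹) * rr w.right :=
      W.eq_inl_mul rfl
    conv_lhs => rw [h1]
    rw [K.mul_mem_cancel_right (hR (rr_mem _ hw))]
    rfl
  ext w
  rw [mem_KX]
  constructor
  · intro hw
    exact ⟨h0 w hw, (key w (h0 w hw)).1 hw⟩
  · rintro ⟨h1, h2⟩
    exact (key w h1).2 h2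

theorem onto {K : Subgroup (W S)} (hR : KX ⊥ inv_bot ≤ K) (h0 : ∃ k ∈ K, k.right.right 0 ≠ 0)
    (y : Yb S) : ∃ k ∈ K, k.right = y := by
  by_cases hy : y.right 0 = 0
  · exact ⟨rr y, hR (rr_mem y hy), rfl⟩
  · obtain ⟨k, hk, hk0⟩ := h0
    set σ : Equiv.Perm (Fin 3) := Equiv.swap (k.right.right 0) (y.right 0) with hσ
    have hσ0 : σ 0 = 0 := Equiv.swap_apply_of_ne_of_ne (Ne.symm hk0) (Ne.symm hy)
    let t : Yb S := SemidirectProduct.inr σ
    have ht : rr t ∈ K := hR (rr_mem t hσ0)
    have h1 : rr t * k ∈ K := K.mul_mem ht hk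
    have h2 : (rr t * k).right.right 0 = y.right 0 := by
      change σ (k.right.right 0) = y.right 0
      rw [hσ, Equiv.swap_apply_left]
    have h3 : ((rr t * k).right⁻¹ * y).right 0 = 0 := by
      change (rr t * k).right.right⁻¹ (y.right 0) = 0
      rw [Equiv.Perm.inv_eq_iff_eq, h2]
    refine ⟨rr t * k * rr ((rr t * k).right⁻¹ * y), K.mul_mem h1 (hR (rr_mem _ h3)), ?_⟩
    rw [SemidirectProduct.mul_right]
    change (rr t * k).right * ((rr t * k).right⁻¹ * y) = y
    rw [mul_inv_cancel_left]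

theorem case_top {K : Subgroup (W S)} (ho : ∀ y : Yb S, ∃ k ∈ K, k.right = y)
    (hX : K.comap (SemidirectProduct.inl : (Om S → S) →* W S) = ⊤) : K = ⊤ := by
  rw [eq_top_iff]
  intro w _
  obtain ⟨k, hk, h⟩ := ho w.right
  rw [W.eq_inl_mul h.symm]
  refine K.mul_mem ?_ hk
  have h1 : (w.left * k.left⁻¹) ∈ K.comap (SemidirectProduct.inl : (Om S → S) →* W S) := by
    rw [hX]
    trivial
  exact h1

theorem case_D1 [IsSimpleGroup S] (hS : ∃ a b : S, a * b ≠ b * a) {K : Subgroup (W S)}
    (ho : ∀ y : Yb S, ∃ k ∈ K, k.right = y)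
    (hX : K.comap (SemidirectProduct.inl : (Om S → S) →* W S) = D1 S) : K = K5 S := by
  have hX' : ∀ f : Om S → S, (SemidirectProduct.inl f : W S) ∈ K ↔ f ∈ D1 S := by
    intro f
    rw [← hX]
    rfl
  have h1 : K ≤ K5 S := by
    intro k hk x
    refine eq_of_conj hS fun s => ?_
    have h2 : (SemidirectProduct.inl (fun _ => s) : W S) ∈ K := (hX' _).2 fun _ => rfl
    have h3 := K.mul_mem (K.mul_mem hk h2) (K.inv_mem hk)
    rw [W.conj_inl, hX'] at h3
    exact h3 x
  refine le_antisymm h1 ?_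
  intro w hw
  obtain ⟨k, hk, h⟩ := ho w.right
  rw [W.eq_inl_mul h.symm]
  refine K.mul_mem ((hX' _).2 ?_) hk
  intro x
  rw [Pi.mul_apply, Pi.mul_apply, Pi.inv_apply, Pi.inv_apply, mem_K5.1 hw x, mem_K5.1 (h1 hk) x]

/-- The function of the second coordinate. -/
def f2 (x : Om S) : S := x.1 1 2
/-- A function in the second block subgroup. -/
def f3 (x : Om S) : S := x.1 0 2 * x.1 1 0

theorem f2_mem : (f2 : Om S → S) ∈ X1 S := by
  intro x c
  simp [f2, pt_apply, e0]

theorem f3_mem : (f3 : Om S → S) ∈ X2 S := by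
  intro x c
  simp only [f3, pt_apply, e0]
  simp
  group

theorem case_X1 (hS : ∃ a b : S, a * b ≠ b * a) {K : Subgroup (W S)}
    (ho : ∀ y : Yb S, ∃ k ∈ K, k.right = y)
    (hX : K.comap (SemidirectProduct.inl : (Om S → S) →* W S) = X1 S) : False := by
  have hX' : ∀ f : Om S → S, (SemidirectProduct.inl f : W S) ∈ K ↔ f ∈ X1 S := by
    intro f
    rw [← hX]
    rfl
  obtain ⟨a, b, hab⟩ := hS
  obtain ⟨k, hk, h⟩ := ho (SemidirectProduct.inr (Equiv.swap 0 1))
  have h3 := K.mul_mem (K.mul_mem hk ((hX' _).2 f2_mem)) (K.inv_mem hk)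
  rw [W.conj_inl, hX'] at h3
  have h4 := h3 1 a
  simp only [f2, inv_smul_apply, h, SemidirectProduct.left_inr, SemidirectProduct.right_inr,
    pt_apply, e0] at h4
  simp [Equiv.swap_apply_def] at h4
  apply hab
  rw [h4, one_mul, mul_one]

theorem case_X2 (hS : ∃ a b : S, a * b ≠ b * a) {K : Subgroup (W S)}
    (ho : ∀ y : Yb S, ∃ k ∈ K, k.right = y)
    (hX : K.comap (SemidirectProduct.inl : (Om S → S) →* W S) = X2 S) : False := by
  have hX' : ∀ f : Om S → S, (SemidirectProduct.inl f : W S) ∈ K ↔ f ∈ X2 S := by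
    intro f
    rw [← hX]
    rfl
  obtain ⟨a, b, hab⟩ := hS
  obtain ⟨k, hk, h⟩ := ho (SemidirectProduct.inr (Equiv.swap 0 1))
  have h3 := K.mul_mem (K.mul_mem hk ((hX' _).2 f3_mem)) (K.inv_mem hk)
  rw [W.conj_inl, hX'] at h3
  have h4 := h3 1 a
  simp only [f3, inv_smul_apply, h, SemidirectProduct.left_inr, SemidirectProduct.right_inr,
    pt_apply, e0] at h4
  simp [Equiv.swap_apply_def] at h4
  apply hab
  rw [h4, one_mul, mul_one]

theorem case_bot [IsSimpleGroup S] (hS : ∃ a b : S, a * b ≠ b * a) {K : Subgroup (W S)}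
    (hR : KX ⊥ inv_bot ≤ K) (ho : ∀ y : Yb S, ∃ k ∈ K, k.right = y)
    (hX : K.comap (SemidirectProduct.inl : (Om S → S) →* W S) = ⊥) : K = K6 S := by
  have hX' : ∀ f : Om S → S, (SemidirectProduct.inl f : W S) ∈ K → f = 1 := by
    intro f hf
    have h1 : f ∈ K.comap (SemidirectProduct.inl : (Om S → S) →* W S) := hf
    rwa [hX, Subgroup.mem_bot] at h1
  have huniq : ∀ k ∈ K, ∀ k' ∈ K, k.right = k'.right → k = k' := by
    intro k hk k' hk' h
    have h1 := W.eq_inl_mul h
    have h2 : (SemidirectProduct.inl (k.left * k'.left⁻¹) : W S) ∈ K := by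
      rw [← K.mul_mem_cancel_right hk', ← h1]
      exact hk
    rw [hX' _ h2, map_one, one_mul] at h1
    exact h1
  have hσ : ∀ σ : Equiv.Perm (Fin 3), ∃ k ∈ K, k.right = SemidirectProduct.inr σ ∧
      k.left (pt 1) = 1 := by
    intro σ
    obtain ⟨k, hk, h⟩ := ho (SemidirectProduct.inr σ)
    refine ⟨k, hk, h, eq_one_of_comm hS fun s => ?_⟩
    let y : Yb S := SemidirectProduct.inl (fun _ => s)
    have hr : rr y ∈ K := hR (rr_mem y rfl)
    have h1 : rr y * k = k * rr y := by
      refine huniq _ (K.mul_mem hr hk) _ (K.mul_mem hk hr) ?_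
      rw [SemidirectProduct.mul_right, SemidirectProduct.mul_right, h]
      refine SemidirectProduct.ext (funext fun i => ?_) ?_
      · rw [Yb.mul_left', Yb.mul_left']
        change s * 1 = 1 * s
        rw [one_mul, mul_one]
      · change 1 * σ = σ * 1
        rw [one_mul, mul_one]
    have h2 := congrArg (fun w : W S => w.left (pt 1)) h1
    simp only [W.mul_left'] at h2
    have h3 : (rr y).right⁻¹ • pt 1 = (pt 1 : Om S) := by
      rw [inv_smul_eq_iff]
      apply Om.ext
      intro i j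
      change (1 : S) * 1⁻¹ = s * (1 * 1⁻¹) * s⁻¹
      group
    rw [h3] at h2
    exact h2.symm
  have h1 : K ≤ K6 S := by
    intro k hk x
    rw [x.eq_pt]
    generalize (fun i => x.1 i 0) = z
    obtain ⟨v, hv, hv1, hv2⟩ := hσ k.right.right
    let z' : Fin 3 → S := fun i => (z (k.right.right i))⁻¹ * k.right.left (k.right.right i)
    have h2 : rr (SemidirectProduct.inl z) ∈ K := hR (rr_mem _ rfl)
    have h3 : rr (SemidirectProduct.inl z') ∈ K := hR (rr_mem _ rfl)
    have h4 : k = rr (SemidirectProduct.inl z) * v * rr (SemidirectProduct.inl z') := by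
      refine huniq _ hk _ (K.mul_mem (K.mul_mem h2 hv) h3) ?_
      rw [SemidirectProduct.mul_right, SemidirectProduct.mul_right, hv1]
      refine SemidirectProduct.ext (funext fun i => ?_) ?_
      · rw [Yb.mul_left', Yb.mul_left']
        change k.right.left i = z i * 1 * ((z (k.right.right ((1 * k.right.right)⁻¹ i)))⁻¹ *
          k.right.left (k.right.right ((1 * k.right.right)⁻¹ i)))
        rw [one_mul, pinv']
        group
      · change k.right.right = 1 * k.right.right * 1
        rw [one_mul, mul_one]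
    have h5 := congrArg (fun w : W S => w.left (pt z)) h4
    simp only [W.mul_left'] at h5
    have h6 : (rr (SemidirectProduct.inl z)).right⁻¹ • pt z = (pt 1 : Om S) := by
      rw [inv_smul_eq_iff]
      apply Om.ext
      intro i j
      change z i * (z j)⁻¹ = z i * (1 * 1⁻¹) * (z j)⁻¹
      group
    rw [h6, hv2] at h5
    rw [h5, pt_apply]
    change z 0 * 1 * ((z (k.right.right 0))⁻¹ * k.right.left (k.right.right 0)) = _
    group
  refine le_antisymm h1 ?_
  intro w hw
  obtain ⟨k, hk, h⟩ := ho w.right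
  have h2 : w = k := by
    refine W.ext' (fun x => ?_) h.symm
    rw [mem_K6.1 hw, mem_K6.1 (h1 hk), h]
  rw [h2]
  exact hk

/-- **The overgroups.** -/
theorem overgroups [Finite S] [IsSimpleGroup S] (hS : ∃ a b : S, a * b ≠ b * a)
    {K : Subgroup (W S)} (hR : KX ⊥ inv_bot ≤ K) : ∃ i < 8, K = sub S i := by
  by_cases h0 : ∀ k ∈ K, k.right.right 0 = 0
  · have h1 := eq_KX hR h0
    have h2 := cls hS _ (inv_comap hR)
    generalize_proofs hp at h1
    revert h1 hp h2
    generalize K.comap (SemidirectProduct.inl : (Om S → S) →* W S) = X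
    rintro h2 hp h1
    rcases h2 with rfl | rfl | rfl | rfl | rfl
    · exact ⟨0, by norm_num, h1⟩
    · exact ⟨1, by norm_num, h1⟩
    · exact ⟨2, by norm_num, h1⟩
    · exact ⟨3, by norm_num, h1⟩
    · exact ⟨4, by norm_num, h1⟩
  · have h1 : ∃ k ∈ K, k.right.right 0 ≠ 0 := by
      by_contra hcon
      apply h0
      intro k hk
      by_contra h2
      exact hcon ⟨k, hk, h2⟩
    have ho := onto hR h1
    rcases cls hS _ (inv_comap hR) with h | h | h | h | h
    · exact ⟨6, by norm_num, case_bot hS hR ho h⟩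
    · exact ⟨5, by norm_num, case_D1 hS ho h⟩
    · exact (case_X1 hS ho h).elim
    · exact (case_X2 hS ho h).elim
    · exact ⟨7, by norm_num, case_top ho h⟩

end

end Vale.Agent.P183.H491
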